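import Mathlib

/-! # Mertens' theorems (copied from `Vale.Agent.P023.H902.Mertens`) -/

set_option linter.all false

namespace P004E.H185.Mer

open Finset Real MeasureTheory

/-- the primes up to `N` -/
def pr (N : ℕ) : Finset ℕ := (Icc 1 N).filter Nat.Prime

lemma mem_pr {N p : ℕ} : p ∈ pr N ↔ p.Prime ∧ p ≤ N := by
  simp only [pr, mem_filter, mem_Icc]
  constructor
  · rintro ⟨⟨_, h⟩, hp⟩; exact ⟨hp, h⟩
  · rintro ⟨hp, h⟩; exact ⟨⟨hp.one_lt.le, h⟩, hp⟩

lemma log_factorial_eq (N : ℕ) :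
    Real.log (N.factorial : ℝ) = ∑ p ∈ pr N, (N.factorial.factorization p : ℝ) * Real.log p := by
  rw [Real.log_nat_eq_sum_factorization, Finsupp.sum]
  apply Finset.sum_subset
  · intro p hp
    rw [Nat.support_factorization] at hp
    have := Nat.prime_of_mem_primeFactors hp
    rw [mem_pr]
    refine ⟨this, ?_⟩
    exact (Nat.Prime.dvd_factorial this).mp (Nat.dvd_of_mem_primeFactors hp)
  · intro p _ hp
    rw [Finsupp.notMem_support_iff] at hp
    simp [hp]

lemma sum_log_div_le (N : ℕ) (hN : 1 ≤ N) :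
    ∑ p ∈ pr N, Real.log p / p ≤ Real.log N + Real.log 4 := by
  have hN0 : (0:ℝ) < N := by exact_mod_cast hN
  have h1 : Real.log (N.factorial : ℝ) ≤ N * Real.log N := by
    have h := Nat.factorial_le_pow N
    have h2 : (N.factorial : ℝ) ≤ (N:ℝ) ^ N := by exact_mod_cast h
    calc Real.log (N.factorial : ℝ) ≤ Real.log ((N:ℝ)^N) :=
          Real.log_le_log (by exact_mod_cast N.factorial_pos) h2
      _ = N * Real.log N := by rw [Real.log_pow]
  have h2 : ∑ p ∈ pr N, ((N:ℝ) / p - 1) * Real.log p ≤ Real.log (N.factorial : ℝ) := by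
    rw [log_factorial_eq]
    apply Finset.sum_le_sum
    intro p hp
    rw [mem_pr] at hp
    obtain ⟨hp, hpN⟩ := hp
    apply mul_le_mul_of_nonneg_right _ (Real.log_nonneg (by exact_mod_cast hp.one_lt.le))
    have hb : Nat.log p N < Nat.log p N + 1 := Nat.lt_succ_self _
    have h3 : N / p ≤ N.factorial.factorization p := by
      rw [Nat.factorization_factorial hp hb]
      have h4 : 1 ∈ Ico 1 (Nat.log p N + 1) := by
        rw [Finset.mem_Ico]
        exact ⟨le_refl _, by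
          have := Nat.log_pos hp.one_lt hpN
          omega⟩
      calc N / p = N / p ^ 1 := by rw [pow_one]
        _ ≤ ∑ i ∈ Ico 1 (Nat.log p N + 1), N / p ^ i :=
          Finset.single_le_sum (f := fun i => N / p ^ i) (fun i _ => Nat.zero_le _) h4
    have h5 : (N:ℝ) / p - 1 ≤ ((N / p : ℕ) : ℝ) := by
      have := Nat.lt_floor_add_one ((N:ℝ)/p)
      rw [Nat.floor_div_eq_div] at this
      linarith only [this]
    calc (N:ℝ) / p - 1 ≤ ((N / p : ℕ) : ℝ) := h5
      _ ≤ _ := by exact_mod_cast h3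
  have h3 : ∑ p ∈ pr N, ((N:ℝ) / p - 1) * Real.log p
      = N * (∑ p ∈ pr N, Real.log p / p) - ∑ p ∈ pr N, Real.log p := by
    rw [Finset.mul_sum, ← Finset.sum_sub_distrib]
    apply Finset.sum_congr rfl
    intro p _
    ring
  have h4 : ∑ p ∈ pr N, Real.log (p:ℝ) ≤ Real.log 4 * N := by
    have h := Chebyshev.theta_le_log4_mul_x (x := N) (by positivity)
    have h5 : Chebyshev.theta (N:ℝ) = ∑ p ∈ pr N, Real.log (p:ℝ) := by
      rw [Chebyshev.theta_eq_sum_Icc, Nat.floor_natCast]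
      apply Finset.sum_congr
      · ext p
        rw [mem_pr]
        simp only [mem_filter, mem_Icc]
        constructor
        · rintro ⟨⟨_, h⟩, hp⟩; exact ⟨hp, h⟩
        · rintro ⟨hp, h⟩; exact ⟨⟨Nat.zero_le _, h⟩, hp⟩
      · intros; rfl
    rw [← h5]; exact h
  have h6 : (N:ℝ) * (∑ p ∈ pr N, Real.log p / p) ≤ N * (Real.log N + Real.log 4) := by
    rw [h3] at h2
    nlinarith only [h1, h2, h4]
  exact le_of_mul_le_mul_left h6 hN0

lemma le_sum_log_div_pred (N : ℕ) (hN : 1 ≤ N) :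
    Real.log N - 1 ≤ ∑ p ∈ pr N, Real.log p / (p - 1) := by
  have hN0 : (0:ℝ) < N := by exact_mod_cast hN
  have h1 : (N:ℝ) * Real.log N - N ≤ Real.log (N.factorial : ℝ) := by
    have h := Stirling.le_log_factorial_stirling (n := N) (by omega)
    have h2 : 0 ≤ Real.log N := Real.log_nonneg (by exact_mod_cast hN)
    have h3 : 0 ≤ Real.log (2 * π) := Real.log_nonneg (by nlinarith only [Real.pi_gt_three])
    linarith only [h, h2, h3]
  have h2 : Real.log (N.factorial : ℝ) ≤ ∑ p ∈ pr N, ((N:ℝ) / (p - 1)) * Real.log p := by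
    rw [log_factorial_eq]
    apply Finset.sum_le_sum
    intro p hp
    rw [mem_pr] at hp
    obtain ⟨hp, hpN⟩ := hp
    apply mul_le_mul_of_nonneg_right _ (Real.log_nonneg (by exact_mod_cast hp.one_lt.le))
    have h3 := Nat.factorization_factorial_le_div_pred hp N
    have h4 : ((N / (p - 1) : ℕ) : ℝ) ≤ (N:ℝ) / ((p - 1 : ℕ) : ℝ) := Nat.cast_div_le
    have h5 : ((p - 1 : ℕ) : ℝ) = (p:ℝ) - 1 := by
      rw [Nat.cast_sub hp.one_lt.le]; simp
    rw [h5] at h4
    calc _ ≤ ((N / (p - 1) : ℕ) : ℝ) := by exact_mod_cast h3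
      _ ≤ _ := h4
  have h3 : ∑ p ∈ pr N, ((N:ℝ) / (p - 1)) * Real.log p
      = N * ∑ p ∈ pr N, Real.log p / (p - 1) := by
    rw [Finset.mul_sum]
    apply Finset.sum_congr rfl
    intro p _
    ring
  rw [h3] at h2
  have h4 : (N:ℝ) * (Real.log N - 1) ≤ N * ∑ p ∈ pr N, Real.log p / (p - 1) := by linarith only [h1, h2]
  exact le_of_mul_le_mul_left h4 hN0

/-- `∑ log n / (n (n-1))` is bounded -/
lemma exists_bound_sum_log_div_sq :
    ∃ C : ℝ, 0 < C ∧ ∀ N : ℕ, ∑ p ∈ pr N, Real.log p / (p * (p - 1)) ≤ C := by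
  have hs : Summable (fun n : ℕ => (4:ℝ) * (1 / (n:ℝ) ^ (3/2 : ℝ))) :=
    (Real.summable_one_div_nat_rpow.mpr (by norm_num)).mul_left 4
  refine ⟨∑' n : ℕ, (4:ℝ) * (1 / (n:ℝ) ^ (3/2 : ℝ)) + 1, ?_, ?_⟩
  · have : 0 ≤ ∑' n : ℕ, (4:ℝ) * (1 / (n:ℝ) ^ (3/2 : ℝ)) := tsum_nonneg (fun n => by positivity)
    linarith only [this]
  · intro N
    have h1 : ∑ p ∈ pr N, Real.log p / (p * (p - 1)) ≤ ∑ p ∈ pr N, (4:ℝ) * (1 / (p:ℝ) ^ (3/2 : ℝ)) := by
      apply Finset.sum_le_sum
      intro p hp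
      rw [mem_pr] at hp
      have hp2 : (2:ℝ) ≤ p := by exact_mod_cast hp.1.two_le
      have hp0 : (0:ℝ) < p := by linarith only [hp2]
      have h2 : Real.log p ≤ 2 * (p:ℝ) ^ (1/2 : ℝ) := by
        have := Real.log_le_rpow_div (x := p) (ε := 1/2) (by positivity) (by norm_num)
        linarith only [this]
      have h3 : (p:ℝ) * p ≤ 2 * (p * (p - 1)) := by nlinarith only [hp2]
      have h4 : (0:ℝ) < p * (p - 1) := by nlinarith only [hp2]
      have h5 : (p:ℝ) ^ (3/2 : ℝ) * (p:ℝ) ^ (1/2 : ℝ) = p * p := by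
        rw [← Real.rpow_add hp0]; norm_num; ring
      have h6 : (0:ℝ) < (p:ℝ) ^ (3/2 : ℝ) := by positivity
      rw [mul_one_div, div_le_div_iff₀ h4 h6]
      have h7 : (0:ℝ) ≤ (p:ℝ) ^ (1/2 : ℝ) := by positivity
      calc Real.log p * (p:ℝ) ^ (3/2 : ℝ) ≤ (2 * (p:ℝ) ^ (1/2 : ℝ)) * (p:ℝ) ^ (3/2 : ℝ) :=
            mul_le_mul_of_nonneg_right h2 h6.le
        _ = 2 * ((p:ℝ) ^ (3/2 : ℝ) * (p:ℝ) ^ (1/2 : ℝ)) := by ring
        _ = 2 * (p * p) := by rw [h5]
        _ ≤ 4 * (p * (p - 1)) := by linarith only [h3]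
    have h2 : ∑ p ∈ pr N, (4:ℝ) * (1 / (p:ℝ) ^ (3/2 : ℝ)) ≤ ∑' n : ℕ, (4:ℝ) * (1 / (n:ℝ) ^ (3/2 : ℝ)) :=
      hs.sum_le_tsum _ (fun n _ => by (clear * - n; positivity))
    linarith only [h1, h2]

/-- Mertens' first theorem, in the forms needed -/
theorem mertens_one : ∃ C : ℝ, 0 < C ∧ ∀ N : ℕ, 1 ≤ N →
    Real.log N - C ≤ ∑ p ∈ pr N, Real.log p / p ∧
    ∑ p ∈ pr N, Real.log p / p ≤ Real.log N + C ∧
    ∑ p ∈ pr N, Real.log p / (p - 1) ≤ Real.log N + C := by
  obtain ⟨C, hC, h⟩ := exists_bound_sum_log_div_sq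
  have hlog4 : 0 < Real.log 4 := Real.log_pos (by norm_num)
  refine ⟨C + 1 + Real.log 4, by positivity, fun N hN => ?_⟩
  have h1 := sum_log_div_le N hN
  have h2 := le_sum_log_div_pred N hN
  have h3 : ∑ p ∈ pr N, Real.log p / (p - 1)
      = ∑ p ∈ pr N, Real.log p / p + ∑ p ∈ pr N, Real.log p / (p * (p - 1)) := by
    rw [← Finset.sum_add_distrib]
    apply Finset.sum_congr rfl
    intro p hp
    rw [mem_pr] at hp
    have hp2 : (2:ℝ) ≤ p := by exact_mod_cast hp.1.two_le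
    have h4 : (p:ℝ) ≠ 0 := by linarith only [hp2]
    have h5 : (p:ℝ) - 1 ≠ 0 := by linarith only [hp2]
    field_simp
    ring
  have h4 := h N
  refine ⟨?_, ?_, ?_⟩ <;> linarith only [h3, h4, h1, hC, hlog4, h2]





open Finset Real MeasureTheory

/-- coefficients `log p / p` on primes -/
noncomputable def cLog (k : ℕ) : ℝ := if k.Prime then Real.log k / k else 0

lemma sum_cLog (N : ℕ) : ∑ k ∈ Icc 0 N, cLog k = ∑ p ∈ pr N, Real.log p / p := by
  unfold cLog
  rw [← Finset.sum_filter]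
  apply Finset.sum_congr _ (fun _ _ => rfl)
  ext p
  rw [mem_pr]
  simp only [mem_filter, mem_Icc]
  constructor
  · rintro ⟨⟨_, h⟩, hp⟩; exact ⟨hp, h⟩
  · rintro ⟨hp, h⟩; exact ⟨⟨Nat.zero_le _, h⟩, hp⟩

/-- sums up to real arguments -/
lemma exists_bound_S : ∃ C : ℝ, 0 < C ∧ ∀ t : ℝ, 1 ≤ t →
    |∑ k ∈ Icc 0 ⌊t⌋₊, cLog k - Real.log t| ≤ C := by
  obtain ⟨C, hC, h⟩ := mertens_one
  refine ⟨C + 1, by positivity, fun t ht => ?_⟩
  have ht0 : 0 < t := by linarith only [ht]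
  have hfl : 1 ≤ ⌊t⌋₊ := Nat.le_floor (by simpa only [Nat.cast_one] using ht)
  obtain ⟨h1, h2, _⟩ := h ⌊t⌋₊ hfl
  rw [sum_cLog]
  have h3 : Real.log (⌊t⌋₊ : ℝ) ≤ Real.log t :=
    Real.log_le_log (by exact_mod_cast hfl) (Nat.floor_le ht0.le)
  have h4 : Real.log t ≤ Real.log (⌊t⌋₊ : ℝ) + 1 := by
    have hf1 : (1:ℝ) ≤ (⌊t⌋₊ : ℝ) := by exact_mod_cast hfl
    have h5 : t ≤ 2 * (⌊t⌋₊ : ℝ) := by
      have := Nat.lt_floor_add_one t
      linarith only [hf1, this]
    have h6 : Real.log t ≤ Real.log (2 * (⌊t⌋₊ : ℝ)) := Real.log_le_log ht0 h5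
    rw [Real.log_mul (by norm_num) (by positivity)] at h6
    have h7 : Real.log 2 ≤ 1 := by
      have := Real.log_two_lt_d9
      linarith only [this]
    linarith only [h6, h7]
  rw [abs_le]
  constructor <;> linarith only [h1, h4, h2, h3]

theorem mertens_two : ∃ C : ℝ, 0 < C ∧ ∀ a b : ℝ, 2 ≤ a → a ≤ b →
    |∑ p ∈ (Ioc ⌊a⌋₊ ⌊b⌋₊).filter Nat.Prime, (1:ℝ) / p - Real.log (Real.log b / Real.log a)|
      ≤ C / Real.log a := by
  obtain ⟨C, hC, hS⟩ := exists_bound_S
  refine ⟨2 * C, by positivity, fun a b ha hab => ?_⟩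
  have ha0 : 0 < a := by linarith only [ha]
  have hb0 : 0 < b := by linarith only [ha, hab]
  have hla : 0 < Real.log a := Real.log_pos (by linarith only [ha])
  have hlb : 0 < Real.log b := Real.log_pos (by linarith only [ha, hab])
  set f : ℝ → ℝ := fun t => (Real.log t)⁻¹ with hf
  have hderiv : ∀ t : ℝ, 1 < t → HasDerivAt f (-(t * (Real.log t) ^ 2)⁻¹) t := by
    intro t ht
    have h1 : Real.log t ≠ 0 := (Real.log_pos ht).ne'
    have h2 : HasDerivAt (fun t => (Real.log t)⁻¹) (-(t⁻¹) / (Real.log t) ^ 2) t :=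
      (Real.hasDerivAt_log (by linarith only [ht])).inv h1
    convert h2 using 1
    have : t ≠ 0 := by linarith only [ht]
    field_simp
  have hderiv' : ∀ t ∈ Set.Icc a b, deriv f t = -(t * (Real.log t) ^ 2)⁻¹ := fun t ht =>
    (hderiv t (by linarith only [ha, ht, ht.1])).deriv
  have hcontf : ContinuousOn (fun t : ℝ => -(t * (Real.log t) ^ 2)⁻¹) (Set.Icc a b) := by
    apply ContinuousOn.neg
    apply ContinuousOn.inv₀
    · apply ContinuousOn.mul continuousOn_id
      apply ContinuousOn.pow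
      exact Real.continuousOn_log.mono (fun t ht => by
        simp only [Set.mem_compl_iff, Set.mem_singleton_iff]; linarith only [ha, ht, ht.1])
    · intro t ht
      have : 0 < Real.log t := Real.log_pos (by linarith only [ha, ht, ht.1])
      have h0 : 0 < t := by linarith only [ha, ht, ht.1]
      positivity
  have hint : IntegrableOn (deriv f) (Set.Icc a b) := by
    have h1 := hcontf.integrableOn_compact isCompact_Icc (μ := volume)
    exact h1.congr_fun (fun t ht => (hderiv' t ht).symm) measurableSet_Icc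
  have habel := sum_mul_eq_sub_sub_integral_mul cLog (f := f) (a := a) (b := b) ha0.le hab
    (fun t ht => (hderiv t (by linarith only [ha, ht, ht.1])).differentiableAt) hint
  have hlhs : ∑ k ∈ Ioc ⌊a⌋₊ ⌊b⌋₊, f k * cLog k
      = ∑ p ∈ (Ioc ⌊a⌋₊ ⌊b⌋₊).filter Nat.Prime, (1:ℝ) / p := by
    rw [Finset.sum_filter]
    apply Finset.sum_congr rfl
    intro k hk
    unfold cLog
    by_cases hp : k.Prime
    · simp only [hp, if_true, hf]
      have h1 : Real.log (k:ℝ) ≠ 0 := (Real.log_pos (by exact_mod_cast hp.one_lt)).ne'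
      (clear * - k h1; field_simp)
    · simp [hp]
  rw [← hlhs, habel]
  have hSb := hS b (by linarith only [ha, hab])
  have hSa := hS a (by linarith only [ha])
  -- the integral
  have hI : IntegrableOn (fun t ↦ deriv f t * ∑ k ∈ Icc 0 ⌊t⌋₊, cLog k) (Set.Ioc a b) :=
    (integrableOn_mul_sum_Icc cLog ha0.le hint).mono_set Set.Ioc_subset_Icc_self
  have hFTC : ∀ c : ℝ, IntegrableOn (fun t : ℝ => -(t * (Real.log t) ^ 2)⁻¹ * (Real.log t + c)) (Set.Ioc a b) ∧
      ∫ t in Set.Ioc a b, -(t * (Real.log t) ^ 2)⁻¹ * (Real.log t + c)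
      = -(Real.log (Real.log b) - c / Real.log b) + (Real.log (Real.log a) - c / Real.log a) := by
    intro c
    have hcont : ContinuousOn (fun t : ℝ => -(t * (Real.log t) ^ 2)⁻¹ * (Real.log t + c)) (Set.Icc a b) := by
      apply hcontf.mul
      apply ContinuousOn.add _ continuousOn_const
      exact Real.continuousOn_log.mono (fun t ht => by
        simp only [Set.mem_compl_iff, Set.mem_singleton_iff]; linarith only [ha, ht, ht.1])
    refine ⟨(hcont.integrableOn_compact isCompact_Icc).mono_set Set.Ioc_subset_Icc_self, ?_⟩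
    rw [← intervalIntegral.integral_of_le hab]
    have hd : ∀ t ∈ Set.uIcc a b, HasDerivAt (fun t => -(Real.log (Real.log t) - c * (Real.log t)⁻¹))
        (-(t * (Real.log t) ^ 2)⁻¹ * (Real.log t + c)) t := by
      intro t ht
      rw [Set.uIcc_of_le hab] at ht
      have ht1 : 1 < t := by linarith only [ha, ht, ht.1]
      have hlt : Real.log t ≠ 0 := (Real.log_pos ht1).ne'
      have ht0 : t ≠ 0 := by linarith only [ht1]
      have h1 : HasDerivAt (fun t => Real.log (Real.log t)) (t⁻¹ / Real.log t) t :=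
        (Real.hasDerivAt_log ht0).log hlt
      have h2 := (hderiv t ht1).const_mul c
      have h3 := (h1.sub h2).neg
      have h4 : -(t * (Real.log t) ^ 2)⁻¹ * (Real.log t + c)
          = -(t⁻¹ / Real.log t - c * -(t * (Real.log t) ^ 2)⁻¹) := by
        field_simp
        ring
      rw [h4]
      exact h3
    have hii : IntervalIntegrable (fun t : ℝ => -(t * (Real.log t) ^ 2)⁻¹ * (Real.log t + c)) volume a b := by
      apply ContinuousOn.intervalIntegrable
      rw [Set.uIcc_of_le hab]; exact hcont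
    rw [intervalIntegral.integral_eq_sub_of_hasDerivAt hd hii]
    simp only [div_eq_mul_inv]
    ring
  have hpt : ∀ t ∈ Set.Ioc a b,
      -(t * (Real.log t) ^ 2)⁻¹ * (Real.log t + C) ≤ deriv f t * ∑ k ∈ Icc 0 ⌊t⌋₊, cLog k ∧
      deriv f t * ∑ k ∈ Icc 0 ⌊t⌋₊, cLog k ≤ -(t * (Real.log t) ^ 2)⁻¹ * (Real.log t + (-C)) := by
    intro t ht
    have ht1 : 1 < t := by linarith only [ha, ht, ht.1]
    rw [hderiv' t ⟨ht.1.le, ht.2⟩]
    have hSt := hS t (by linarith only [ht1])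
    rw [abs_le] at hSt
    have hpos : 0 < (t * (Real.log t) ^ 2)⁻¹ := by
      have := Real.log_pos ht1
      (clear * - ht1 this; positivity)
    constructor <;> nlinarith only [hSt, hpos]
  have hlow : ∫ t in Set.Ioc a b, -(t * (Real.log t) ^ 2)⁻¹ * (Real.log t + C)
      ≤ ∫ t in Set.Ioc a b, deriv f t * ∑ k ∈ Icc 0 ⌊t⌋₊, cLog k :=
    setIntegral_mono_on (hFTC C).1 hI measurableSet_Ioc (fun t ht => (hpt t ht).1)
  have hupp : ∫ t in Set.Ioc a b, deriv f t * ∑ k ∈ Icc 0 ⌊t⌋₊, cLog k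
      ≤ ∫ t in Set.Ioc a b, -(t * (Real.log t) ^ 2)⁻¹ * (Real.log t + (-C)) :=
    setIntegral_mono_on hI (hFTC (-C)).1 measurableSet_Ioc (fun t ht => (hpt t ht).2)
  rw [(hFTC C).2] at hlow
  rw [(hFTC (-C)).2] at hupp
  rw [abs_le] at hSa hSb
  have hfb : f b = (Real.log b)⁻¹ := rfl
  have hfa : f a = (Real.log a)⁻¹ := rfl
  rw [Real.log_div hlb.ne' hla.ne', hfb, hfa]
  set IV := ∫ t in Set.Ioc a b, deriv f t * ∑ k ∈ Icc 0 ⌊t⌋₊, cLog k
  set Sb := ∑ k ∈ Icc 0 ⌊b⌋₊, cLog k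
  set Sa := ∑ k ∈ Icc 0 ⌊a⌋₊, cLog k
  have hb1 : (Real.log b)⁻¹ * Sb ≤ 1 + C / Real.log b := by
    have : (Real.log b)⁻¹ * Sb ≤ (Real.log b)⁻¹ * (Real.log b + C) :=
      mul_le_mul_of_nonneg_left (by linarith only [hSb]) (by positivity)
    calc _ ≤ _ := this
      _ = 1 + C / Real.log b := by (clear * - hlb hC; field_simp)
  have hb2 : 1 - C / Real.log b ≤ (Real.log b)⁻¹ * Sb := by
    have : (Real.log b)⁻¹ * (Real.log b - C) ≤ (Real.log b)⁻¹ * Sb :=
      mul_le_mul_of_nonneg_left (by linarith only [hSb]) (by positivity)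
    calc 1 - C / Real.log b = (Real.log b)⁻¹ * (Real.log b - C) := by (clear * - C b hlb; field_simp)
      _ ≤ _ := this
  have ha1 : (Real.log a)⁻¹ * Sa ≤ 1 + C / Real.log a := by
    have : (Real.log a)⁻¹ * Sa ≤ (Real.log a)⁻¹ * (Real.log a + C) :=
      mul_le_mul_of_nonneg_left (by linarith only [hSa]) (by positivity)
    calc _ ≤ _ := this
      _ = 1 + C / Real.log a := by (clear * - hla hC; field_simp)
  have ha2 : 1 - C / Real.log a ≤ (Real.log a)⁻¹ * Sa := by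
    have : (Real.log a)⁻¹ * (Real.log a - C) ≤ (Real.log a)⁻¹ * Sa :=
      mul_le_mul_of_nonneg_left (by linarith only [hSa]) (by positivity)
    calc 1 - C / Real.log a = (Real.log a)⁻¹ * (Real.log a - C) := by (clear * - hla; field_simp)
      _ ≤ _ := this
  have e1 : -C / Real.log b = - (C / Real.log b) := by ring
  have e2 : -C / Real.log a = - (C / Real.log a) := by ring
  have e3 : 2 * C / Real.log a = 2 * (C / Real.log a) := by ring
  rw [e1, e2] at hupp
  rw [abs_le, e3]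
  constructor <;> linarith only [hlow, hb1, ha2, hupp, hb2, ha1]





open Finset

end P004E.H185.Mer
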